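import Vale.Agent.P027H.Add

/-!
P269, block C: pairs of elliptic functions which parametrise a Weierstrass cubic.
-/

set_option linter.all false

noncomputable section

namespace Vale.Agent.P269CE

open Set Filter Topology Vale.Agent.P027H

variable {Λ : Submodule ℤ ℂ} {f g k φ : ℂ → ℂ} {z : ℂ}

theorem neg_not (hz : z ∉ Λ) : -z ∉ Λ := fun e => hz (by simpa using e)

theorem half (hper : ∀ z, z ∉ Λ → ∀ l ∈ Λ, k (z + l) = k z) (hz : z ∉ Λ) (h2 : 2 * z ∈ Λ) :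
    k (-z) = k z := by
  rw [← hper (-z) (neg_not hz) _ h2]
  congr 1
  ring

theorem wp_per (h : IsLat Λ) (z : ℂ) {l : ℂ} (hl : l ∈ Λ) : wp Λ (z + l) = wp Λ z :=
  h.wp_congr (by simpa using hl)

/-- an odd elliptic function with at most simple poles at the lattice points vanishes -/
theorem odd_zero (h : IsLat Λ) (hper : ∀ z, z ∉ Λ → ∀ l ∈ Λ, k (z + l) = k z)
    (hd : ∀ z, z ∉ Λ → DifferentiableAt ℂ k z) (hodd : ∀ z, z ∉ Λ → k (-z) = -k z) {ρ : ℂ}
    (hlim : Tendsto (fun z => (z * k z) ^ 2) (𝓝[≠] 0) (𝓝 ρ)) (hz : z ∉ Λ) : k z = 0 := by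
  obtain ⟨c, hc⟩ := h.liou (f := fun z => k z ^ 2 - ρ * wp Λ z)
    (fun z hz l hl => by rw [hper z hz l hl, wp_per h z hl])
    (fun z hz => ((hd z hz).pow 2).sub ((h.hasDerivAt_wp hz).differentiableAt.const_mul ρ))
    (fun z hz => by rw [hodd z hz, h.wp_neg, neg_sq]) (by
      have t := hlim.sub (h.tendsto_wp.const_mul ρ)
      rw [mul_one, sub_self] at t
      exact t.congr fun z => by ring)
  obtain ⟨a, b, -, ha, hb, -, h2a, h2b, -, h1, -⟩ := h.exists_three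
  have z0 : ∀ a, a ∉ Λ → 2 * a ∈ Λ → k a = 0 := fun a ha h2 => by
    linear_combination ((half hper ha h2).symm.trans (hodd a ha)) / 2
  have ea := hc a ha
  have eb := hc b hb
  rw [z0 a ha h2a] at ea
  rw [z0 b hb h2b] at eb
  have r0 : ρ = 0 := mul_right_cancel₀ (sub_ne_zero.2 h1) (by linear_combination eb - ea)
  have e := hc z hz
  rw [r0] at e ea
  exact pow_eq_zero_iff two_ne_zero |>.1 (by linear_combination e - ea)

/-- an elliptic function with at most double poles at the lattice points -/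
theorem eq_wp (h : IsLat Λ) (hper : ∀ z, z ∉ Λ → ∀ l ∈ Λ, f (z + l) = f z)
    (hd : ∀ z, z ∉ Λ → DifferentiableAt ℂ f z) (hφ : AnalyticAt ℂ φ 0)
    (e : ∀ᶠ z in 𝓝[≠] 0, z ^ 2 * f z = φ z) : ∃ β, ∀ z, z ∉ Λ → f z = φ 0 * wp Λ z + β := by
  have hn : AnalyticAt ℂ (fun z => φ (-z)) 0 :=
    AnalyticAt.comp_of_eq hφ analyticAt_id.neg neg_zero
  have tn : Tendsto (fun z : ℂ => -z) (𝓝[≠] 0) (𝓝[≠] 0) :=
    tendsto_nhdsWithin_iff.2 ⟨by
      simpa using (continuous_neg.tendsto (0 : ℂ)).mono_left nhdsWithin_le_nhds,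
      eventually_mem_nhdsWithin.mono fun z hz => neg_ne_zero.2 hz⟩
  have ev : ∀ z, z ∉ Λ → f z - f (-z) = 0 := fun z hz => by
    refine odd_zero (k := fun z => f z - f (-z)) h (fun z hz l hl => ?_) (fun z hz => (hd z hz).sub
      (DifferentiableAt.comp (g := f) z (hd _ (neg_not hz)) differentiableAt_id.neg))
      (fun z _ => by rw [neg_neg, neg_sub]) (ρ := dslope (fun z => φ z - φ (-z)) 0 0 ^ 2) ?_ hz
    · rw [hper z hz l hl, neg_add, hper _ (neg_not hz) _ (neg_mem hl)]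
    · have t := (continuousAt_dslope_same.2 (hφ.sub hn).differentiableAt).tendsto.mono_left
        (nhdsWithin_le_nhds (s := {0}ᶜ))
      refine (t.congr' ?_).pow 2
      filter_upwards [e, tn.eventually e, self_mem_nhdsWithin] with w h1 h2 (h3 : w ≠ 0)
      rw [dslope_of_ne _ h3, slope_def_field]
      simp only [Pi.sub_apply, neg_zero, sub_self, sub_zero]
      rw [← h1, ← h2]
      field_simp
  obtain ⟨β, hβ⟩ := h.liou (f := fun z => f z - φ 0 * wp Λ z)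
    (fun z hz l hl => by rw [hper z hz l hl, wp_per h z hl])
    (fun z hz => (hd z hz).sub ((h.hasDerivAt_wp hz).differentiableAt.const_mul _))
    (fun z hz => by rw [h.wp_neg, ← sub_eq_zero.1 (ev z hz)]) (by
      have t := ((hφ.continuousAt.tendsto.mono_left nhdsWithin_le_nhds).congr'
        (EventuallyEq.symm e)).sub (h.tendsto_wp.const_mul (φ 0))
      rw [mul_one, sub_self] at t
      exact t.congr fun z => by ring)
  exact ⟨β, fun z hz => by linear_combination hβ z hz⟩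

theorem conn_compl (h : IsLat Λ) : IsPreconnected ((Λ : Set ℂ)ᶜ) := by
  obtain ⟨P, rfl⟩ := h
  have : Countable P.lattice := inferInstance
  exact (Set.Countable.isConnected_compl_of_one_lt_rank (by simp)
    (Set.to_countable _)).isPreconnected

theorem ev_half (h : IsLat Λ) (h2 : 2 * z ∈ Λ) : ∀ᶠ w in 𝓝[≠] z, 2 * w ∉ Λ := by
  have t : Tendsto (fun w => 2 * w - 2 * z) (𝓝[≠] z) (𝓝[≠] 0) :=
    tendsto_nhdsWithin_iff.2 ⟨by
      have : Continuous fun w : ℂ => 2 * w - 2 * z := by fun_prop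
      simpa using (this.tendsto z).mono_left nhdsWithin_le_nhds,
      eventually_mem_nhdsWithin.mono fun w hw e => hw (by
        have e' : 2 * w - 2 * z = 0 := e
        show w = z
        linear_combination e' / 2)⟩
  exact (t.eventually h.notMem_zero).mono fun w hw e => hw (sub_mem e h2)

/-- **parametrisations of Weierstrass cubics** -/
theorem ell (h : IsLat Λ) (pf : ∀ z, z ∉ Λ → ∀ l ∈ Λ, f (z + l) = f z)
    (pg : ∀ z, z ∉ Λ → ∀ l ∈ Λ, g (z + l) = g z) (hf : ∀ z, z ∉ Λ → AnalyticAt ℂ f z)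
    (hg : ∀ z, z ∉ Λ → AnalyticAt ℂ g z) {A B : ℂ}
    (eq : ∀ z, z ∉ Λ → g z ^ 2 = f z ^ 3 + A * f z + B)
    (sep : ∀ z w, z ∉ Λ → w ∉ Λ → f z = f w → g z = g w → z - w ∈ Λ) (hφ : AnalyticAt ℂ φ 0)
    (h0 : φ 0 ≠ 0) (e : ∀ᶠ z in 𝓝[≠] 0, z ^ 2 * f z = φ z) :
    ∃ s : ℂ, s ≠ 0 ∧ A = s ^ 4 * (-g2 Λ / 4) ∧ B = s ^ 6 * (-g3 Λ / 4) ∧
      ∀ z, z ∉ Λ → f z = s ^ 2 * wp Λ z ∧ g z = s ^ 3 * (dwp Λ z / 2) := by
  obtain ⟨β, hβ⟩ := eq_wp h pf (fun z hz => (hf z hz).differentiableAt) hφ e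
  generalize φ 0 = α at h0 hβ
  have ev : ∀ z, z ∉ Λ → f (-z) = f z := fun z hz => by
    rw [hβ z hz, hβ _ (neg_not hz), h.wp_neg]
  have od : ∀ z, z ∉ Λ → 2 * z ∉ Λ → g (-z) = -g z := fun z hz h2 =>
    (sq_eq_sq_iff_eq_or_eq_neg.1 (by rw [eq z hz, eq _ (neg_not hz), ev z hz])).resolve_left
      fun k => h2 (mem_of_eq (sep z (-z) hz (neg_not hz) (ev z hz).symm k.symm) (by ring))
  have z0 : ∀ a, a ∉ Λ → 2 * a ∈ Λ →
      (α * wp Λ a + β) ^ 3 + A * (α * wp Λ a + β) + B = 0 ∧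
        4 * wp Λ a ^ 3 - g2 Λ * wp Λ a - g3 Λ = 0 := fun a ha h2 => by
    have c1 : ContinuousAt (fun z => g (-z)) a :=
      ContinuousAt.comp (g := g) (hg _ (neg_not ha)).continuousAt continuous_neg.continuousAt
    have c2 : g (-a) = -g a := tendsto_nhds_unique_of_eventuallyEq
      (c1.tendsto.mono_left nhdsWithin_le_nhds)
      ((hg a ha).continuousAt.neg.tendsto.mono_left (nhdsWithin_le_nhds (s := {a}ᶜ))) (by
        filter_upwards [ev_half h h2, nhdsWithin_le_nhds (h.notMem_nhds ha)] with w h3 h4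
          using od w h4 h3)
    have c3 : g a = 0 := by linear_combination ((half pg ha h2).symm.trans c2) / 2
    refine ⟨by rw [← hβ a ha, ← eq a ha, c3]; ring, ?_⟩
    rw [← h.ode ha, (h.dwp_eq_zero ha).2 h2]
    ring
  obtain ⟨a, b, c, ha, hb, hc, h2a, h2b, h2c, d1, d2, d3⟩ := h.exists_three
  obtain ⟨a1, a2⟩ := z0 a ha h2a
  obtain ⟨b1, b2⟩ := z0 b hb h2b
  obtain ⟨c1, c2⟩ := z0 c hc h2c
  generalize wp Λ a = x at *
  generalize wp Λ b = y at *
  generalize wp Λ c = t at *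
  have q : ∀ {p q r : ℂ}, p * x ^ 2 + q * x + r = 0 → p * y ^ 2 + q * y + r = 0 →
      p * t ^ 2 + q * t + r = 0 → p = 0 ∧ q = 0 ∧ r = 0 := fun {p q r} e1 e2 e3 => by
    have k1 : p * (x + y) + q = 0 :=
      mul_left_cancel₀ (sub_ne_zero.2 d1) (by linear_combination e1 - e2)
    have k2 : p * (x + t) + q = 0 :=
      mul_left_cancel₀ (sub_ne_zero.2 d2) (by linear_combination e1 - e3)
    have k3 : p = 0 := mul_left_cancel₀ (sub_ne_zero.2 d3) (by linear_combination k1 - k2)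
    have k4 : q = 0 := by rw [k3] at k1; linear_combination k1
    exact ⟨k3, k4, by rw [k3, k4] at e1; linear_combination e1⟩
  obtain ⟨q1, q2, q3⟩ := q (p := 3 * α ^ 2 * β) (q := 3 * α * β ^ 2 + A * α + α ^ 3 * g2 Λ / 4)
    (r := β ^ 3 + A * β + B + α ^ 3 * g3 Λ / 4) (by linear_combination a1 - α ^ 3 / 4 * a2)
    (by linear_combination b1 - α ^ 3 / 4 * b2) (by linear_combination c1 - α ^ 3 / 4 * c2)
  obtain rfl : β = 0 := (mul_eq_zero.1 q1).resolve_left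
    (mul_ne_zero three_ne_zero (pow_ne_zero 2 h0))
  have hA : A = α ^ 2 * (-g2 Λ / 4) := mul_right_cancel₀ h0 (by linear_combination q2)
  have hB : B = α ^ 3 * (-g3 Λ / 4) := by linear_combination q3
  obtain ⟨s, rfl⟩ := IsAlgClosed.exists_pow_nat_eq α (n := 2) two_pos
  have s0 : s ≠ 0 := fun k => h0 (by rw [k]; ring)
  have an : ∀ s : ℂ, AnalyticOnNhd ℂ (fun z => g z - s ^ 3 * (dwp Λ z / 2)) (Λ : Set ℂ)ᶜ :=
    fun s z hz => (hg z hz).sub (analyticAt_const.mul ((h.analyticAt_dwp hz).div analyticAt_const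
      two_ne_zero))
  rcases (an s).eq_zero_or_eq_zero_of_mul_eq_zero (an (-s)) (fun z hz => by
    have k1 := eq z hz
    rw [hβ z hz, hA, hB] at k1
    linear_combination k1 - s ^ 6 / 4 * h.ode hz) (conn_compl h) with k | k
  · exact ⟨s, s0, by rw [hA]; ring, by rw [hB]; ring, fun z hz =>
      ⟨by rw [hβ z hz, add_zero], sub_eq_zero.1 (k z hz)⟩⟩
  · exact ⟨-s, neg_ne_zero.2 s0, by rw [hA]; ring, by rw [hB]; ring, fun z hz =>
      ⟨by rw [hβ z hz, add_zero, neg_sq], sub_eq_zero.1 (k z hz)⟩⟩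

end Vale.Agent.P269CE
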