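import Vale.Agent.P269CE.Wp
import Vale.Agent.P269CE.Ell
import Vale.Agent.P269CW.Spec

/-!
P269, block C: isomorphisms of smooth Weierstrass cubics are scalings.
-/

set_option linter.all false

noncomputable section

namespace Vale.Agent.P269CE

open Set Filter Topology Vale.Agent.P273.H183 Vale.Agent.P269CW Vale.Agent.P027H
open Vale.Agent.P273SD (HolF FIso)

variable {L : Type} {m : ℕ} {B : Set (Fin m → ℂ)} {a : (Fin m → ℂ) → Fin 2 → ℂ}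
  {hne : B.Nonempty} {b : Fin m → ℂ} {Λ : Submodule ℤ ℂ} {z : ℂ} {P : tot B a}

theorem hlo_x (hP : P ∈ (aff : Set (tot B a))) : hlo xC P :=
  (hlo_aff hP).2 ⟨fun w => w.2.1, analyticAt_mid _, Eventually.of_forall fun _ => rfl⟩

theorem hlo_y (hP : P ∈ (aff : Set (tot B a))) : hlo yC P :=
  (hlo_aff hP).2 ⟨fun w => w.2.2, analyticAt_snd' _, Eventually.of_forall fun _ => rfl⟩

theorem hlo_w (hP : P ∈ (far : Set (tot B a))) : hlo wC P :=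
  (hlo_far hP).2 ⟨fun w => w.2.1, analyticAt_mid _, Eventually.of_forall fun _ => rfl⟩

theorem hlo_u (hP : P ∈ (far : Set (tot B a))) : hlo uC P :=
  (hlo_far hP).2 ⟨fun w => w.2.2, analyticAt_snd' _, Eventually.of_forall fun _ => rfl⟩

theorem sw_inj (c : Fin 2 → ℂ) : ∃ V ∈ 𝓝 (0 : ℂ), InjOn (sw c) V := by
  have h1 : AnalyticAt ℂ (sw c) 0 := by unfold sw; fun_prop
  have h2 : deriv (sw c) 0 ≠ 0 := by rw [(hasDerivAt_sw c 0).deriv]; simp [sw1]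
  refine ⟨_, h1.hasStrictDerivAt.eventually_left_inverse h2, fun x hx y hy e => ?_⟩
  rw [← show _ = x from hx, e]
  exact hy

/-- the pole of `x` along an injective holomorphic map through the point at infinity -/
theorem pole {ψ : ℂ → tot B a} (hb : b ∈ B) (hψ : HolF (W L B a hne) b ψ 0) (h0 : ψ 0 = oo hne b)
    {V : Set ℂ} (hV : V ∈ 𝓝 (0 : ℂ)) (hi : InjOn ψ V) : ∃ φ : ℂ → ℂ, AnalyticAt ℂ φ 0 ∧ φ 0 ≠ 0 ∧
      ∀ᶠ z in 𝓝[≠] 0, z ^ 2 * xC (ψ z) = φ z := by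
  have hF : ψ 0 ∈ (far : Set (tot B a)) := h0 ▸ oo_far hne hb
  have aw : AnalyticAt ℂ (fun z => wC (ψ z)) 0 := hψ.an _ (hlo_w hF)
  have au : AnalyticAt ℂ (fun z => uC (ψ z)) 0 := hψ.an _ (hlo_u hF)
  have w0 : wC (ψ 0) = 0 := by rw [h0, wC_oo hne hb]
  have u0 : uC (ψ 0) = 0 := by rw [h0, uC_oo hne hb]
  obtain ⟨T, hT, iT⟩ := sw_inj (a b)
  have e1 : ∀ᶠ z in 𝓝 0, ψ z ∈ (far : Set (tot B a)) ∧ pr (ψ z) = b ∧
      uC (ψ z) ^ 2 = sw (a b) (wC (ψ z)) := by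
    filter_upwards [hψ.cont.eventually (isOpen_far.mem_nhds hF), hψ.fib] with z h1 h2
    have h3 : pr (ψ z) = b := h2
    exact ⟨h1, h3, h3 ▸ (cF_mem h1).2⟩
  have e2 : ∀ᶠ z in 𝓝 0, wC (ψ z) ∈ T :=
    aw.continuousAt (show T ∈ 𝓝 (wC (ψ 0)) by rw [w0]; exact hT)
  obtain ⟨O, o1, o2, o3⟩ := eventually_nhds_iff.1 (e1.and (au.eventually_analyticAt.and
    (Eventually.and hV e2)))
  have hd : deriv (fun z => uC (ψ z)) 0 ≠ 0 := by
    refine P247.H558.VF.injOn_deriv_ne_zero o2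
      (fun z hz => (o1 z hz).2.1.differentiableAt.differentiableWithinAt) (fun z hz w hw e => ?_) o3
    obtain ⟨⟨a1, a2, a3⟩, -, a4, a5⟩ := o1 z hz
    obtain ⟨⟨b1, b2, b3⟩, -, b4, b5⟩ := o1 w hw
    have e' : uC (ψ z) = uC (ψ w) := e
    refine hi a4 b4 (Subtype.ext ?_)
    rw [← emb'_cF a1, ← emb'_cF b1, cF_eq, cF_eq, a2, b2, e', iT a5 b5 (by rw [← a3, ← b3, e'])]
  have ad : AnalyticAt ℂ (dslope (fun z => uC (ψ z)) 0) 0 := by
    obtain ⟨p, hp⟩ := au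
    exact ⟨_, hp.has_fpower_series_dslope_fslope⟩
  have d0 : dslope (fun z => uC (ψ z)) 0 0 ≠ 0 := by rwa [dslope_same]
  refine ⟨fun z => (1 + a b 0 * wC (ψ z) ^ 2 + a b 1 * wC (ψ z) ^ 3) /
    dslope (fun z => uC (ψ z)) 0 z ^ 2, ((analyticAt_const.add (analyticAt_const.mul
      (aw.pow 2))).add (analyticAt_const.mul (aw.pow 3))).div (ad.pow 2) (pow_ne_zero 2 d0),
      by simpa [w0] using d0, ?_⟩
  filter_upwards [nhdsWithin_le_nhds e1, nhdsWithin_le_nhds (ad.continuousAt.eventually_ne d0),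
    self_mem_nhdsWithin] with z ⟨h1, h2, h3⟩ h4 (h5 : z ≠ 0)
  have h6 : uC (ψ z) = z * dslope (fun z => uC (ψ z)) 0 z := by
    have := sub_smul_dslope (fun z => uC (ψ z)) 0 z
    rw [u0, sub_zero, sub_zero, smul_eq_mul] at this
    exact this.symm
  generalize dslope (fun z => uC (ψ z)) 0 z = d at h4 h6
  have h7 : wC (ψ z) ≠ 0 := fun e => by
    rw [e, h6] at h3
    exact pow_ne_zero 2 (mul_ne_zero h5 h4) (by simpa [sw] using h3)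
  have h8 : xC (ψ z) = (wC (ψ z))⁻¹ := by rw [wC_eq ((aff_iff h1).2 h7) h1, inv_inv]
  rw [h6, sw] at h3
  rw [h8]
  field_simp
  linear_combination h3

/-- uniformisations of a Weierstrass cubic -/
theorem unif (h : IsLat Λ) {ψ : ℂ → tot B a} (hb : b ∈ B) (hψ : ∀ z, HolF (W L B a hne) b ψ z)
    (h0 : ψ 0 = oo hne b) (ker : ∀ z w, ψ z = ψ w ↔ z - w ∈ Λ) :
    (∀ z, z ∉ Λ → ψ z ∈ (aff : Set (tot B a))) ∧
    ∃ s : ℂ, s ≠ 0 ∧ a b 0 = s ^ 4 * (-g2 Λ / 4) ∧ a b 1 = s ^ 6 * (-g3 Λ / 4) ∧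
      ∀ z, z ∉ Λ → xC (ψ z) = s ^ 2 * wp Λ z ∧ yC (ψ z) = s ^ 3 * (dwp Λ z / 2) := by
  have hp : ∀ z, pr (ψ z) = b := fun z => (hψ z).mem
  have hA : ∀ z, z ∉ Λ → ψ z ∈ (aff : Set (tot B a)) := fun z hz => by_contra fun e =>
    hz (by simpa using (ker z 0).1 (by rw [h0, eq_oo hne e, hp]))
  have per : ∀ z, ∀ l ∈ Λ, ψ (z + l) = ψ z := fun z l hl => (ker _ _).2 (by simpa using hl)
  have t : Tendsto (fun z : ℂ × ℂ => z.1 - z.2) (𝓝 0 ×ˢ 𝓝 0) (𝓝 0) := by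
    simpa using (tendsto_fst (f := 𝓝 (0 : ℂ)) (g := 𝓝 (0 : ℂ))).sub tendsto_snd
  obtain ⟨V, hV, hV'⟩ := (eventually_prod_self_iff
    (r := fun z w : ℂ => z - w ≠ 0 → z - w ∉ Λ)).1 (t.eventually (eventually_nhdsWithin_iff.1 h.notMem_zero))
  obtain ⟨φ, h1, h2, h3⟩ := pole hb (hψ 0) h0 hV fun z hz w hw e => by_contra fun k =>
    hV' z hz w hw (sub_ne_zero.2 k) ((ker z w).1 e)
  exact ⟨hA, ell h (fun z _ l hl => by rw [per z l hl]) (fun z _ l hl => by rw [per z l hl])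
    (fun z hz => (hψ z).an _ (hlo_x (hA z hz))) (fun z hz => (hψ z).an _ (hlo_y (hA z hz)))
    (fun z hz => hp z ▸ (cA_mem (hA z hz)).2) (fun z w hz hw e1 e2 => (ker z w).1 (Subtype.ext (by
      rw [← emb_cA (hA z hz), ← emb_cA (hA w hw), cA_eq, cA_eq, hp, hp, e1, e2]))) h1 h2 h3⟩

/-- **Row AUT** -/
theorem aut : AUT := by
  intro m m' B B' a a' hne hne' hB hB' ha ha' b hb b' hb' hd Φ hΦ
  have hC := W_isStable (Fin 1) hne hB (fun b h => (ha b h).1) fun b h => (ha b h).2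
  obtain ⟨φ, hφ, e⟩ := P269CV.fiso_of_iso hC hb hΦ
  obtain ⟨Λ, h⟩ := exists_lt hb hd
  obtain ⟨h1, s, h2, h3, h4, h5⟩ := unif (ψ := fun z => φ (h.u hne z)) h.lat hb'
    (fun z => hφ.holF (h.u_hol z)) (by
      show φ (h.u hne 0) = _
      rw [h.u_mem (zero_mem _)]
      exact hφ.mark 0) fun z w => by
      rw [← h.u_ker (hne := hne)]
      exact ⟨fun k => hφ.bij.injOn (h.u_hol (L := Fin 1) z).mem (h.u_hol (L := Fin 1) w).mem k,
        fun k => congrArg φ k⟩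
  refine ⟨s, h2, by rw [h3, h.a0], by rw [h4, h.a1], fun p hp => ?_⟩
  obtain ⟨z, hz⟩ := h.u_surj (hne := hne) p.2
  have k : z ∉ Λ := h.u_aff.1 (hz ▸ hp)
  rw [← e p, ← hz, h.u_x k, h.u_y k]
  exact ⟨h1 z k, h5 z k⟩

end Vale.Agent.P269CE
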