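import Vale.Agent.P269CW.Stab
import Vale.Agent.P269CV.Co

/-!
P269, block C: Weierstrass cubics with nonzero discriminant are smooth.
-/

set_option linter.all false

noncomputable section

namespace Vale.Agent.P269CE

open Set Filter Topology Vale.Agent.P273.H183 Vale.Agent.P269CW
open Vale.Agent.P273SD (Sm)

variable {L : Type} {m : ℕ} {B : Set (Fin m → ℂ)} {a : (Fin m → ℂ) → Fin 2 → ℂ}
  {hne : B.Nonempty}

theorem sm_of_one {C : Fam L m} {U : Set C.X} {x y : C.X → ℂ} {p : C.X} (hp : p ∈ U)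
    (h : IsChart C.π C.hol U x y fun _ => 1) : Sm C p := by
  have h3 := IsChart.isModel (hol := fun P f => C.hol f P) h
  exact ⟨U, x, y, _, hp, h3, left_ne_zero_of_mul_eq_one (h3.eqn _ hp)⟩

theorem disc_zero {c : Fin 2 → ℂ} {x : ℂ} (h0 : sx c x = 0) (h1 : sx1 c x = 0) :
    4 * c 0 ^ 3 + 27 * c 1 ^ 2 = 0 := by
  have e0 : c 0 = -3 * x ^ 2 := by rw [sx1] at h1; linear_combination h1
  have e1 : c 1 = 2 * x ^ 3 := by rw [sx, e0] at h0; linear_combination h0
  rw [e0, e1]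
  ring

/-- the points of a cubic with nonzero discriminant are smooth -/
theorem W_sm (hB : IsOpen B) (ha : ∀ b ∈ B, AnalyticAt ℂ a b) (P : tot B a)
    (hd : 4 * a (pr P) 0 ^ 3 + 27 * a (pr P) 1 ^ 2 ≠ 0) : Sm (W L B a hne) P := by
  by_cases hP : P ∈ (aff : Set (tot B a))
  · have hm := cA_mem hP
    have hb : pr P ∈ B := hm.1
    have h0 : yC P ^ 2 = sx (a (pr P)) (xC P) := hm.2
    have hF : AnalyticAt ℂ (fun z : (Fin m → ℂ) × ℂ × ℂ => z.2.2 ^ 2 - sx (a z.1) z.2.1)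
        (pr P, xC P, yC P) :=
      ((analyticAt_snd' _).pow 2).sub (analyticAt_sx (ha _ hb) analyticAt_fst rfl (analyticAt_mid _))
    have hZ : ∀ᶠ z in 𝓝 ((pr P, xC P, yC P) : (Fin m → ℂ) × ℂ × ℂ),
        z ∈ Zaff B a ↔ z.2.2 ^ 2 - sx (a z.1) z.2.1 = 0 := by
      filter_upwards [continuousAt_fst.eventually (hB.mem_nhds hb)] with z hz
      rw [sub_eq_zero]
      exact ⟨fun h => h.2, fun h => ⟨hz, h⟩⟩
    by_cases hy : yC P = 0
    · have g : HasDerivAt (fun x => yC P ^ 2 - sx (a (pr P)) x) (-sx1 (a (pr P)) (xC P)) (xC P) :=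
        (hasDerivAt_sx _ _).const_sub _
      obtain ⟨U, x, y, h1, -, h2⟩ := isAmb_aff.smooth hP hF hZ (neg_ne_zero.2 fun e =>
        hd (disc_zero (by rw [← h0, hy]; ring) e)) (Or.inr g)
      exact sm_of_one (C := W L B a hne) h1 h2
    · have g : HasDerivAt (fun y => y ^ 2 - sx (a (pr P)) (xC P)) (2 * yC P) (yC P) := by
        refine HasDerivAt.congr_deriv ((hasDerivAt_pow 2 (yC P)).sub_const _) ?_
        simp
      obtain ⟨U, x, y, h1, -, h2⟩ := isAmb_aff.smooth hP hF hZ (mul_ne_zero two_ne_zero hy)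
        (Or.inl g)
      exact sm_of_one (C := W L B a hne) h1 h2
  · obtain ⟨U, x, y, h1, -, h2⟩ := far_chart hB ha ((mem_aff_or_far P).resolve_left hP) (by
      rw [wC_eq_zero hP]; simp [sw1])
    exact sm_of_one (C := W L B a hne) h1 h2

end Vale.Agent.P269CE
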