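import Vale.Agent.P269CE.Aut
import Vale.Agent.P269CE.Sm
import Vale.Agent.P269CS.Cls

/-!
P269, block C: smooth curves of genus one with a marked point are Weierstrass cubics.
-/

set_option linter.all false

noncomputable section

namespace Vale.Agent.P269CE

open Set Filter Topology Vale.Agent.P273.H183 Vale.Agent.P269CW Vale.Agent.P027H
open Vale.Agent.P272.K

theorem sp_of_sm {L : Type} {m : ℕ} {C : Fam L m} (hC : C.IsStable) {p : C.X}
    (h : P273SD.Sm C p) : P269C.Sp C p := fun U x y t hU hp =>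
  h.all hC (IsChart.isModel (hol := fun P f => C.hol f P) hU) hp

theorem W2_stable : W2.IsStable :=
  W_isStable (Fin 1) ne2 isOpen_compl_singleton (fun _ _ => analyticAt_id) fun _ h => h

/-- **Row CLS** -/
theorem cls : CLS := by
  rintro m C hC b hb hs ⟨e, he⟩
  have hs' : P269C.Sm C b := fun p hp => sp_of_sm hC (P269CV.co_sm hC (hs p hp).choose_spec)
  obtain ⟨P, u, hu, h0⟩ := P269CS.unif1 hC hb hs' he ((hC.2.2.2.2.2 b hb).2.1 0).1
  have hP : IsLat P.lattice := ⟨P, rfl⟩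
  let a : Cm 2 := ![-g2 P.lattice / 4, -g3 P.lattice / 4]
  have hd : 4 * a 0 ^ 3 + 27 * a 1 ^ 2 ≠ 0 := hP.disc_ne
  have ha : a ≠ 0 := fun k => hd (by rw [k]; simp)
  have h : Lt ({0}ᶜ : Set (Cm 2)) id a P.lattice := ⟨ha, hP, rfl, rfl⟩
  obtain ⟨Φ, hΦ, -⟩ := hu.iso (C' := W2) (b' := a) (P' := P) (u' := h.u ne2)
    ⟨h.u_hol, fun p hp => h.u_surj hp, h.u_ker⟩ hC hb hs' W2_stable ha
    (fun p hp => sp_of_sm W2_stable (W_sm isOpen_compl_singleton (fun _ _ => analyticAt_id) p (by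
      rw [show pr (B := ({0}ᶜ : Set (Cm 2))) (a := id) p = a from hp]; exact hd)))
    one_ne_zero (fun z => by rw [one_mul]) fun i => ⟨0, by rw [h0, Subsingleton.elim i 0], by
      rw [mul_zero]; exact h.u_mem (zero_mem _)⟩
  exact ⟨a, ha, hd, Φ, hΦ⟩

end Vale.Agent.P269CE
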