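import Vale.Agent.P275RR.Frame

/-!
P269, block C: the theorem of Riemann and Roch for line bundles on a compact Riemann surface.
-/

set_option linter.all false

open scoped Topology ContDiff
open Set Filter Metric Complex Module

noncomputable section

namespace Vale.Agent.P269CE

open Vale.Agent.P275GC Vale.Agent.P275GC.At Vale.Agent.P275RR

variable {C : Type} [TopologicalSpace C] {A : At C} {l : Co A ℂ} {s : Fam A ℂ}

theorem sec_of (h : s ∈ H0 A (ln A l)) : A.Sec l s := fun i j z a => h.2.1 i j z a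

theorem cut_H0 (h1 : A.Hl s) (h : A.Sec l s) : cut A s ∈ H0 A (ln A l) :=
  cut_mem0 h1 fun i j z a => h i j z a

theorem sd_ln (hl : A.Cc l) : SD A (ContinuousLinearMap.mul ℂ ℂ)
    (ln A fun i j z => A.d i j z * (l i j z)⁻¹) (ln A l) where
  bij := ⟨fun a b e => by
    simpa using congrArg (fun T : ℂ →L[ℂ] ℂ => T 1) e, fun T => ⟨T 1, by
      ext; simp⟩⟩
  eq i j z a y x := by
    have := hl.ne a
    simp only [ln_apply, ContinuousLinearMap.mul_apply']
    field_simp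

theorem tv_eq : tv A ℂ = ln A fun _ _ _ => 1 := by
  funext i j z
  simp [ln, tw]

variable [T2Space C]

theorem h1_ln (hl : A.Cc l) : h1 A (ln A l) = h0 A (ln A fun i j z => A.d i j z * (l i j z)⁻¹) :=
  h1_eq (cc_ln hl) (cc_ln (A.cc_d.tens hl.dual)) (sd_ln hl)

variable [PreconnectedSpace C]

theorem h0_neg (hl : A.Cc l) (hd : A.deg l < 0) : h0 A (ln A l) = 0 := by
  have : Subsingleton (H0 A (ln A l)) := subsingleton_of_forall_eq 0 fun s =>
    Subtype.ext (Nz.ext s.2.2.2 (fun _ _ _ => rfl) fun i z a =>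
      (sec_of s.2).eq_zero_of_deg_neg s.2.1 hl hd i a)
  exact finrank_zero_of_subsingleton

theorem ev_inj (hl : A.Cc l) (hd : A.deg l < 1) {i : Fin A.N} {z : ℂ} (hz : z ∈ ball (0 : ℂ) A.R) :
    Function.Injective (ev (ln A l) i z) := (injective_iff_map_eq_zero _).2 fun s a =>
  Subtype.ext (Nz.ext s.2.2.2 (fun _ _ _ => rfl) fun j w b => by_contra fun c =>
    ((sec_of s.2).one_le_deg s.2.1 hl b c hz a).not_gt hd)

theorem h0_one (x : C) (hl : A.Cc l) (e : ∀ i j, ∀ z ∈ A.O i j, l i j z = 1) :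
    h0 A (ln A l) = 1 := by
  have d : A.deg l = 0 := (deg_congr hl A.cc_one e).trans deg_one
  have a := ev_inj hl (by rw [d]; exact one_pos) (i := ch A x) (pc_ball x)
  have b : cut A (fun _ _ => (1 : ℂ)) ∈ H0 A (ln A l) :=
    cut_H0 (fun _ => differentiableOn_const _) fun i j z a => by rw [e i j z a, one_smul]
  have c : Function.Surjective (ev (ln A l) (ch A x) (pc A x)) := fun t => ⟨t • ⟨_, b⟩, by
    rw [map_smul]
    show t • cut A (fun _ _ => (1 : ℂ)) (ch A x) (pc A x) = t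
    rw [cut_of _ (pc_ball x), smul_eq_mul, mul_one]⟩
  rw [h0, (LinearEquiv.ofBijective _ ⟨a, c⟩).finrank_eq, finrank_self]

theorem h1_tv : h1 A (tv A ℂ) = gen A := by
  rw [tv_eq, h1_ln A.cc_one, gen]
  simp only [inv_one, mul_one]

theorem chi_tv (x : C) : chi A (tv A ℂ) = 1 - gen A := by
  rw [chi, h1_tv, tv_eq, h0_one x A.cc_one fun _ _ _ _ => rfl]
  rfl

/-- **Riemann-Roch** for line bundles with a section -/
theorem rr (hl : A.Cc l) (h : A.Sec l s) (hs : A.Hl s) {i : Fin A.N} {z : ℂ}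
    (hz : z ∈ ball (0 : ℂ) A.R) (h0 : s i z ≠ 0) :
    (chi A (ln A l) : ℝ) = A.deg l + 1 - gen A := by
  have a := (modif cc_tv (cc_ln hl) (hom_sec h hs (tv A ℂ)) hz (i := i) (by
    rw [det_smul', det_one', mul_one]; exact pow_ne_zero _ h0)).1
  rw [dg_ln hl, dg_tv, chi_tv ((A.e i).symm z)] at a
  push_cast at a
  linarith

theorem exists_ne (h : h0 A (ln A l) ≠ 0) :
    ∃ s ∈ H0 A (ln A l), ∃ i, ∃ z ∈ ball (0 : ℂ) A.R, s i z ≠ 0 := by
  by_contra c
  push Not at c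
  have : Subsingleton (H0 A (ln A l)) := subsingleton_of_forall_eq 0 fun s =>
    Subtype.ext (Nz.ext s.2.2.2 (fun _ _ _ => rfl) fun i z a => c s.1 s.2 i z a)
  exact h finrank_zero_of_subsingleton

/-- the degree of the canonical bundle -/
theorem deg_K (h : gen A ≠ 0) : A.deg A.d = 2 * gen A - 2 := by
  obtain ⟨s, a, i, z, b, c⟩ := exists_ne h
  have d := rr A.cc_d (sec_of a) a.1 b c
  rw [chi, h1_ln A.cc_d, h0_one ((A.e i).symm z) (A.cc_d.tens A.cc_d.dual)
    fun i j z e => mul_inv_cancel₀ (d_ne e), show h0 A (ln A A.d) = gen A from rfl] at d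
  push_cast at d
  linarith

/-- in genus one the differentials have no zeros -/
theorem ne_of_gen (h : gen A = 1) (hs : s ∈ H0 A (ln A A.d)) (h0 : s ≠ 0) (i : Fin A.N) {z : ℂ}
    (hz : z ∈ ball (0 : ℂ) A.R) : s i z ≠ 0 := fun e => h0 <| by
  have d := deg_K (A := A) (by rw [h]; exact one_ne_zero)
  have := ev_inj A.cc_d (by rw [d, h]; norm_num) (i := i) hz
  exact congrArg Subtype.val ((injective_iff_map_eq_zero _).1 this ⟨s, hs⟩ e)

theorem tx_zero (x : C) : tx A x 0 (tv A ℂ) = tv A ℂ := by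
  funext i j z
  simp [tx, tw]

theorem h1_tx (h : gen A = 1) (x : C) (m : ℕ) : h1 A (tx A x (m + 1) (tv A ℂ)) = 0 := by
  have c := (A.cc_ox x).pow (m + 1)
  have d := deg_K (A := A) (by rw [h]; exact one_ne_zero)
  refine (h1_ln c).trans (h0_neg (A.cc_d.tens c.dual) ?_)
  rw [deg_tens A.cc_d c.dual, deg_dual c, deg_pow (A.cc_ox x), deg_ox, d, h]
  push_cast
  linarith [Nat.cast_nonneg (α := ℝ) m]

theorem h0_tx (h : gen A = 1) (x : C) : h0 A (tx A x 1 (tv A ℂ)) = 1 := by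
  have a := (chi_tx (cc_tv (A := A) (F := ℂ)) x 0).1
  rw [tx_zero, chi_tv x, chi, h1_tx h, h, finrank_self, zero_add] at a
  omega

/-- a meromorphic function whose only pole is `x`, of order `m + 1` -/
theorem mer_of (x : C) (m : ℕ)
    (h : h1 A (tx A x (m + 1) (tv A ℂ)) = h1 A (tx A x m (tv A ℂ))) : ∃ (f : C → ℂ) (s : ℂ → ℂ),
    (∀ i, ∀ z ∈ ball (0 : ℂ) A.R, (A.e i).symm z ≠ x → AnalyticAt ℂ (A.pl f i) z) ∧
    AnalyticAt ℂ s (pc A x) ∧ s (pc A x) = 1 ∧
    ∀ z ∈ ball (0 : ℂ) A.R, A.pl f (ch A x) z = s z / (z - pc A x) ^ (m + 1) := by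
  obtain ⟨φ, q⟩ := ev_surj cc_tv x m h 1
  have an : ∀ i, ∀ z ∈ ball (0 : ℂ) A.R, AnalyticAt ℂ (φ.1 i) z := fun i z b => φ.2.1.an b i
  have fn : A.Fn fun i z => φ.1 i z / A.sg x x i z ^ (m + 1) := fun i j z b => by
    beta_reduce
    rw [show φ.1 i z = A.ox x x i j z ^ (m + 1) * φ.1 j (A.tr i j z) from φ.2.2.1 i j z b,
      A.sec_sg x i j z b, smul_eq_mul, mul_pow,
      mul_div_mul_left _ _ (pow_ne_zero _ ((A.cc_ox x).ne b))]
  refine ⟨A.gl _, φ.1 (ch A x), fun i z b c => ((an i z b).div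
    ((an_sg x x i z).pow (m + 1)) (pow_ne_zero _ fun e => c ((sg_eq_zero b).1 e))).congr ?_,
    an _ _ (pc_ball x), q, fun z b => (fn.pl_gl b).trans (by rw [sg_ch])⟩
  filter_upwards [isOpen_ball.mem_nhds b] with w d using (fn.pl_gl d).symm

theorem h1_gen0 (h : gen A = 0) (x : C) :
    h1 A (tx A x (0 + 1) (tv A ℂ)) = h1 A (tx A x 0 (tv A ℂ)) := by
  have a := (chi_tx (cc_tv (A := A) (F := ℂ)) x 0).2
  rw [tx_zero, h1_tv, h] at a ⊢
  omega

end Vale.Agent.P269CE
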