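import Vale.Agent.P027H.Add
import Vale.Agent.P269CW.Stab
import Vale.Agent.P269CV.Co

/-!
P269, block C: the uniformisation of a smooth Weierstrass cubic by the Weierstrass functions.
-/

set_option linter.all false

noncomputable section

namespace Vale.Agent.P269CE

open Set Filter Topology Vale.Agent.P273.H183 Vale.Agent.P269CW Vale.Agent.P027H
open Vale.Agent.P273SD (HolF FIso)

variable {L : Type} {m : ℕ} {B : Set (Fin m → ℂ)} {a : (Fin m → ℂ) → Fin 2 → ℂ}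
  {hne : B.Nonempty} {b : Fin m → ℂ} {Λ : Submodule ℤ ℂ} {z : ℂ}

theorem holF_aff {u : ℂ → tot B a} {x y : ℂ → ℂ} (hx : AnalyticAt ℂ x z) (hy : AnalyticAt ℂ y z)
    (h : ∀ᶠ w in 𝓝 z, u w ∈ (aff : Set (tot B a)) ∧ cA (u w) = (b, x w, y w)) :
    HolF (W L B a hne) b u z := by
  have hγ : AnalyticAt ℂ (fun w => (b, x w, y w)) z := analyticAt_const.prod (hx.prod hy)
  have hc : ContinuousAt u z := by
    rw [Topology.IsInducing.subtypeVal.continuousAt_iff]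
    refine (continuous_emb.continuousAt.comp hγ.continuousAt).congr ?_
    filter_upwards [h] with w hw
    rw [Function.comp_apply, ← hw.2, emb_cA hw.1]
    rfl
  refine ⟨hc, h.mono fun w hw => congrArg Prod.fst hw.2, fun f hf => ?_⟩
  obtain ⟨g, h1, h2⟩ := (hlo_aff h.self_of_nhds.1).1 hf
  refine (AnalyticAt.comp_of_eq h1 hγ h.self_of_nhds.2.symm).congr ?_
  filter_upwards [h, hc.eventually h2] with w h3 h4
  rw [Function.comp_apply, ← h3.2]
  exact h4.symm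

theorem holF_far {u : ℂ → tot B a} {x y : ℂ → ℂ} (hx : AnalyticAt ℂ x z) (hy : AnalyticAt ℂ y z)
    (h : ∀ᶠ w in 𝓝 z, u w ∈ (far : Set (tot B a)) ∧ cF (u w) = (b, x w, y w)) :
    HolF (W L B a hne) b u z := by
  have hγ : AnalyticAt ℂ (fun w => (b, x w, y w)) z := analyticAt_const.prod (hx.prod hy)
  have hc : ContinuousAt u z := by
    rw [Topology.IsInducing.subtypeVal.continuousAt_iff]
    refine (continuous_emb'.continuousAt.comp hγ.continuousAt).congr ?_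
    filter_upwards [h] with w hw
    rw [Function.comp_apply, ← hw.2, emb'_cF hw.1]
    rfl
  refine ⟨hc, h.mono fun w hw => congrArg Prod.fst hw.2, fun f hf => ?_⟩
  obtain ⟨g, h1, h2⟩ := (hlo_far h.self_of_nhds.1).1 hf
  refine (AnalyticAt.comp_of_eq h1 hγ h.self_of_nhds.2.symm).congr ?_
  filter_upwards [h, hc.eventually h2] with w h3 h4
  rw [Function.comp_apply, ← h3.2]
  exact h4.symm

/-- the cubic over `b` belongs to the lattice `Λ` -/
structure Lt (B : Set (Fin m → ℂ)) (a : (Fin m → ℂ) → Fin 2 → ℂ) (b : Fin m → ℂ)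
    (Λ : Submodule ℤ ℂ) : Prop where
  mem : b ∈ B
  lat : IsLat Λ
  a0 : a b 0 = -g2 Λ / 4
  a1 : a b 1 = -g3 Λ / 4

theorem exists_lt (hb : b ∈ B) (hd : 4 * a b 0 ^ 3 + 27 * a b 1 ^ 2 ≠ 0) : ∃ Λ, Lt B a b Λ := by
  obtain ⟨Λ, h1, h2, h3⟩ := exists_lat (a := -4 * a b 0) (b := -4 * a b 1) fun e =>
    hd (by linear_combination e)
  exact ⟨Λ, hb, h1, by rw [h2]; ring, by rw [h3]; ring⟩

theorem ord_wp (h : IsLat Λ) (hz : z ∈ Λ) : meromorphicOrderAt (wp Λ) z = (-2 : ℤ) ∧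
    meromorphicOrderAt (dwp Λ) z = (-3 : ℤ) := by
  obtain ⟨P, rfl⟩ := h
  have h1 : meromorphicOrderAt (wp P.lattice) z = (-2 : ℤ) := P.order_weierstrassP z hz
  refine ⟨h1, ?_⟩
  have h2 := meromorphicOrderAt_deriv_eq_sub_one (by norm_num) h1
  rwa [wp_lat, P.deriv_weierstrassP] at h2

theorem near_lat (h : IsLat Λ) (hz : z ∈ Λ) : ∀ᶠ w in 𝓝 z, w ≠ z → w ∉ Λ ∧ wp Λ w ≠ 0 := by
  have h1 := (meromorphicOrderAt_ne_top_iff_eventually_ne_zero (h.mer_wp z)).1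
    (by rw [(ord_wp h hz).1]; exact WithTop.coe_ne_top)
  filter_upwards [eventually_nhdsWithin_iff.1 h1] with w hw h2
  exact ⟨fun e => hw h2 (h.wp_mem e), hw h2⟩

theorem an_lat (h : IsLat Λ) (hz : z ∈ Λ) : AnalyticAt ℂ (fun w => (wp Λ w)⁻¹) z ∧
    AnalyticAt ℂ (fun w => dwp Λ w / 2 / wp Λ w ^ 2) z := by
  obtain ⟨h1, h2⟩ := ord_wp h hz
  refine ⟨AnalyticAt.of_meromorphicOrderAt_pos ?_ (by rw [h.wp_mem hz, inv_zero]),
    AnalyticAt.of_meromorphicOrderAt_pos ?_ (by rw [h.dwp_mem hz, zero_div, zero_div])⟩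
  · rw [fun_meromorphicOrderAt_inv, h1]
    decide
  · have e : (fun w => dwp Λ w / 2 / wp Λ w ^ 2) =
        (fun _ => (2 : ℂ)⁻¹) * (dwp Λ / wp Λ ^ 2) := by
      funext w
      simp only [Pi.mul_apply, Pi.div_apply, Pi.pow_apply]
      ring
    rw [e, meromorphicOrderAt_mul_of_ne_zero analyticAt_const (by norm_num),
      meromorphicOrderAt_div (h.mer_dwp z) ((h.mer_wp z).pow 2),
      meromorphicOrderAt_pow (h.mer_wp z), h1, h2]
    decide

namespace Lt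

theorem zaff (h : Lt B a b Λ) (hz : z ∉ Λ) : (b, wp Λ z, dwp Λ z / 2) ∈ Zaff B a :=
  ⟨h.mem, by
    show (dwp Λ z / 2) ^ 2 = sx (a b) (wp Λ z)
    rw [sx, h.a0, h.a1]
    linear_combination h.lat.ode hz / 4⟩

open Classical in
/-- the uniformisation -/
def u (h : Lt B a b Λ) (hne : B.Nonempty) (z : ℂ) : tot B a :=
  if hz : z ∈ Λ then oo hne b else ptA ⟨_, h.zaff hz⟩

variable (h : Lt B a b Λ)
include h

theorem u_mem (hz : z ∈ Λ) : h.u hne z = oo hne b := dif_pos hz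

theorem u_not (hz : z ∉ Λ) : h.u hne z ∈ (aff : Set (tot B a)) ∧
    cA (h.u hne z) = (b, wp Λ z, dwp Λ z / 2) := by
  rw [show h.u hne z = ptA ⟨_, h.zaff hz⟩ from dif_neg hz]
  exact ⟨ptA_mem _, cA_ptA _⟩

theorem u_aff : h.u hne z ∈ (aff : Set (tot B a)) ↔ z ∉ Λ :=
  ⟨fun e hz => oo_not_aff hne h.mem (h.u_mem hz ▸ e), fun hz => (h.u_not hz).1⟩

theorem u_x (hz : z ∉ Λ) : xC (h.u hne z) = wp Λ z := by rw [xC, (h.u_not hz).2]

theorem u_y (hz : z ∉ Λ) : yC (h.u hne z) = dwp Λ z / 2 := by rw [yC, (h.u_not hz).2]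

theorem u_hol (z : ℂ) : HolF (W L B a hne) b (h.u hne) z := by
  by_cases hz : z ∈ Λ
  · refine holF_far (an_lat h.lat hz).1 (an_lat h.lat hz).2 ?_
    filter_upwards [near_lat h.lat hz] with w hw
    by_cases e : w = z
    · rw [e, h.u_mem hz, cF_oo hne h.mem, h.lat.wp_mem hz, h.lat.dwp_mem hz]
      exact ⟨oo_far hne h.mem, by simp⟩
    · obtain ⟨h1, h2⟩ := h.u_not (hne := hne) (hw e).1
      have h3 := (far_iff h1).2 (by rw [h.u_x (hw e).1]; exact (hw e).2)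
      exact ⟨h3, by rw [cF_eq_tr h1 h3, h2]; rfl⟩
  · exact holF_aff (h.lat.analyticAt_wp hz) ((h.lat.analyticAt_dwp hz).div analyticAt_const
      two_ne_zero) ((h.lat.notMem_nhds hz).mono fun w hw => h.u_not hw)

theorem u_surj {P : tot B a} (hP : pr P = b) : ∃ z, h.u hne z = P := by
  by_cases hA : P ∈ (aff : Set (tot B a))
  · have h1 : yC P ^ 2 = sx (a (pr P)) (xC P) := (cA_mem hA).2
    rw [hP, sx, h.a0, h.a1] at h1
    obtain ⟨z, hz, h2, h3⟩ := h.lat.surj (x := xC P) (y := 2 * yC P) (by linear_combination 4 * h1)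
    obtain ⟨h4, h5⟩ := h.u_not (hne := hne) hz
    refine ⟨z, Subtype.ext ?_⟩
    rw [← emb_cA h4, ← emb_cA hA, h5, h2, h3, cA_eq, hP, mul_div_cancel_left₀ _ two_ne_zero]
  · exact ⟨0, by rw [h.u_mem (zero_mem _), eq_oo hne hA, hP]⟩

theorem u_ker (z w : ℂ) : h.u hne z = h.u hne w ↔ z - w ∈ Λ := by
  have key : z - w ∈ Λ → (z ∈ Λ ↔ w ∈ Λ) := fun e =>
    ⟨fun k => mem_of_eq (sub_mem k e) (by ring), fun k => mem_of_eq (add_mem k e) (by ring)⟩
  constructor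
  · intro e
    have h1 : z ∉ Λ ↔ w ∉ Λ := by rw [← h.u_aff (hne := hne), e, h.u_aff]
    by_cases hz : z ∈ Λ
    · exact sub_mem hz (not_iff_not.1 h1 |>.1 hz)
    · have h2 := h.u_y (hne := hne) hz
      rw [e, h.u_y (h1.1 hz)] at h2
      exact h.lat.sub_mem_of_eq hz (h1.1 hz) (by rw [← h.u_x (hne := hne) hz, e, h.u_x (h1.1 hz)])
        (by linear_combination -2 * h2)
  · intro e
    by_cases hz : z ∈ Λ
    · rw [h.u_mem hz, h.u_mem ((key e).1 hz)]
    · have hw : w ∉ Λ := fun k => hz ((key e).2 k)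
      refine Subtype.ext ?_
      rw [← emb_cA (h.u_not hz).1, ← emb_cA (h.u_not hw).1, (h.u_not hz).2, (h.u_not hw).2,
        h.lat.wp_congr e, h.lat.dwp_congr e]

theorem disc : 4 * a b 0 ^ 3 + 27 * a b 1 ^ 2 ≠ 0 := by
  rw [h.a0, h.a1]
  exact h.lat.disc_ne

theorem ne : a b ≠ 0 := fun e => h.disc (by rw [e]; simp)

end Lt

end Vale.Agent.P269CE
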